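import Vale.Agent.P280A30.Rows
import Vale.Agent.P277Z.Pos.All

/-!
# P280E73: the embedding theorem of Kodaira (row EMB)
-/

open scoped Manifold ContDiff Topology ComplexOrder
open Set Filter
open Vale.Agent.P272.K (Cm Chart At)
open Vale.Agent.P272.K.C2 (cHess_const)
open Vale.Agent.P301.H599 (LineBundle)
open Vale.Agent.P277Z.Pos (joA soft Jets)
open Vale.Agent.P285.H281.FD Vale.Agent.P300.Final Vale.Agent.P299G40
open Vale.Agent.P281Z (Pos)

noncomputable section

namespace Vale.Agent.P280A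

namespace Emb73

variable {n K : ℕ} {S : Type} [TopologicalSpace S] [ChartedSpace (Cm n) S]

theorem cmd {s : S → Fin (K + 1) → ℂ} {y : S}
    (h : AnalyticAt ℂ (fun z => s ((chartAt (Cm n) y).symm z)) (chartAt (Cm n) y y)) :
    ContMDiffAt 𝓘(ℂ, Cm n) 𝓘(ℂ, Fin (K + 1) → ℂ) ω s y := by
  have hc : ContinuousAt s y := by
    have h1 : ContinuousAt (fun x => s ((chartAt (Cm n) y).symm (chartAt (Cm n) y x))) y :=
      ContinuousAt.comp (g := fun z => s ((chartAt (Cm n) y).symm z)) h.continuousAt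
        ((chartAt (Cm n) y).continuousAt (mem_chart_source _ y))
    exact h1.congr (((chartAt (Cm n) y).eventually_left_inverse (mem_chart_source _ y)).mono
      fun x hx => congrArg s hx)
  rw [contMDiffAt_iff]
  refine ⟨hc, ?_⟩
  simpa [Function.comp_def, chartAt_self_eq] using h.contDiffAt.contDiffWithinAt

theorem dif {s : S → Fin (K + 1) → ℂ} {y : S}
    (h : AnalyticAt ℂ (fun z => s ((chartAt (Cm n) y).symm z)) (chartAt (Cm n) y y)) (v : Cm n) :
    differential (Cm n) s y v =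
      fderiv ℂ (fun z => s ((chartAt (Cm n) y).symm z)) (chartAt (Cm n) y y) v := by
  have h1 := (cmd h).mdifferentiableAt (by simp)
  unfold differential
  rw [h1.mfderiv]
  simp [writtenInExtChartAt, Function.comp_def, chartAt_self_eq]
  rfl

theorem quo {f : Cm n → Fin (K + 1) → ℂ} {a v : Cm n} {c : ℂ} (hf : DifferentiableAt ℂ f a)
    (hv : fderiv ℂ f a v = c • f a) {l : Fin (K + 1)} (hl : f a l ≠ 0) (m : Fin (K + 1)) :
    fderiv ℂ (fun z => f z m / f z l) a v = 0 := by
  have hd : ∀ j, HasFDerivAt (fun z => f z j)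
      ((ContinuousLinearMap.proj j).comp (fderiv ℂ f a)) a := fun j =>
    hasFDerivAt_pi'.1 hf.hasFDerivAt j
  have h1 := ((hd m).mul ((hasFDerivAt_inv hl).comp a (hd l))).fderiv
  have h2 : (fun z => f z m / f z l) = (fun z => f z m) * ((fun x : ℂ => x⁻¹) ∘ fun z => f z l) :=
    funext fun z => div_eq_mul_inv _ _
  rw [h2, h1]
  simp [hv]
  field_simp
  ring

end Emb73

open Emb73 in
theorem emb_n (n : ℕ) (S : Type) [TopologicalSpace S] [T2Space S] [CompactSpace S]
    [ChartedSpace (Cm n) S] [IsManifold 𝓘(ℂ, Cm n) ω S] (L : Bd S) (hL : IsLB n L)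
    (hP : Pos n L) :
    ∃ (K : ℕ) (Φ : S → PN K), Function.Injective Φ ∧ IsProjectiveImmersion (Cm n) Φ := by
  obtain ⟨ψ, hψ, hpos⟩ := hP
  let L' : LineBundle n S L.ι := ⟨L.U, hL.isOpen, hL.cover, L.g,
    fun i j e y he hi hj => (hL.holo i j e y he hi hj).analyticAt, hL.ne_zero, hL.cocycle⟩
  have hJ : Jets L' univ := by
    have := joA n S L.ι L' univ ψ (fun _ => 0) 1 isOpen_univ
      ⟨fun i y _ hi e he => ⟨hψ.smooth i e y he hi, hpos i e y he hi⟩,
        fun i j y _ => hψ.change i j y⟩ (fun y _ e he => ⟨contDiffAt_const, by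
          rw [cHess_const]
          exact Matrix.PosSemidef.zero⟩) (by simpa using isCompact_univ)
    simpa using this
  obtain ⟨k, N, s, hk, hs, hE⟩ :=
    soft n S L.ι L' univ isOpen_univ hJ univ isCompact_univ Subset.rfl
  have hnz : ∀ b, ∀ y ∈ L.U b, (fun a => s a b y : Fin (N + 1) → ℂ) ≠ 0 := fun b y hy e => by
    obtain ⟨l, hl⟩ := hE.nz y trivial b hy
    exact hl (congrFun e l)
  choose b hb using hL.cover
  have hsa : ∀ i, ∀ y ∈ L.U i, AnalyticAt ℂ
      (fun z => (fun a => s a i ((chartAt (Cm n) y).symm z) : Fin (N + 1) → ℂ))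
        (chartAt (Cm n) y y) := fun i y hy =>
    analyticAt_pi_iff.2 fun a => (hs a).holo _ (chartAt (Cm n) y) y
      ⟨chart_mem_atlas _ y, mem_chart_source _ y⟩ hy trivial
  refine ⟨N, fun y => Projectivization.mk ℂ (fun a => s a (b y) y) (hnz _ y (hb y)),
    fun y y' h => ?_, fun x => ⟨L.U (b x), fun y a => s a (b x) y, hb x,
      ⟨hL.isOpen _, fun y hy => (cmd (hsa _ y hy)).contMDiffWithinAt⟩,
      fun y hy => ⟨hnz _ y hy, ?_⟩, fun y hy v c hv => ?_⟩⟩
  · by_contra hne
    obtain ⟨l, m, hlm⟩ := hE.sep y trivial y' trivial (Ne.symm hne) _ _ (hb y) (hb y')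
    obtain ⟨c, hc⟩ := (Projectivization.mk_eq_mk_iff' ℂ _ _ _ _).1 h
    refine hlm ?_
    have h1 : c * s l (b y') y' = s l (b y) y := congrFun hc l
    have h2 : c * s m (b y') y' = s m (b y) y := congrFun hc m
    rw [← h1, ← h2]
    ring
  · exact (Projectivization.mk_eq_mk_iff' ℂ _ _ _ _).2 ⟨L.g (b y) (b x) y ^ k,
      funext fun a => ((hs a).change _ _ y (hb y) hy trivial).symm⟩
  · obtain ⟨l, hl⟩ := hE.nz y trivial _ hy
    rw [dif (hsa _ y hy)] at hv
    have hy' := (chartAt (Cm n) y).left_inv (mem_chart_source _ y)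
    exact hE.imm y trivial _ l hy hl (chartAt (Cm n) y)
      ⟨chart_mem_atlas _ y, mem_chart_source _ y⟩ v fun m =>
        quo (c := c) (hsa _ y hy).differentiableAt (by rw [hv, hy']) (by rw [hy']; exact hl) m

theorem emb : EMB := fun S _ _ _ _ _ L hL hP => emb_n 1 S L hL hP

end Vale.Agent.P280A
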